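import Vale.Agent.P207Z.Geo.Pur.Key

/-!
The purity statement over the complex numbers.
-/

open LinearMap Module Polynomial

noncomputable section

namespace Vale.Agent.P207Z.Geo.Purx

theorem idem_mem {K A : Type*} [Field K] [Ring A] [Algebra K A] (E : Subalgebra K A)
    {s : Finset ℝ} {v : ℝ → K} (hv : Function.Injective v) {p : ℝ → A}
    (hsum : ∑ a ∈ s, p a = 1) (horth : ∀ a b, p a * p b = if a = b then p a else 0)
    (hd : ∑ a ∈ s, v a • p a ∈ E) (a : ℝ) : p a ∈ E := by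
  by_cases ha : a ∈ s
  · obtain ⟨d, h0⟩ : ∃ d, d = ∑ a ∈ s, v a • p a := ⟨_, rfl⟩
    have h1 : ∀ b ∈ s, d * p b = v b • p b := fun b hb => by
      rw [h0, Finset.sum_mul, Finset.sum_eq_single b, smul_mul_assoc, horth, if_pos rfl]
      · intro c _ hc
        rw [smul_mul_assoc, horth, if_neg hc, smul_zero]
      · exact fun h => absurd hb h
    have h2 : ∀ b ∈ s, ∀ r : K[X], aeval d r * p b = r.eval (v b) • p b := fun b hb r => by
      induction r using Polynomial.induction_on with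
      | C c => rw [aeval_C, eval_C, Algebra.smul_def]
      | add r t hr ht => rw [map_add, add_mul, hr, ht, eval_add, add_smul]
      | monomial n c ih =>
        rw [pow_succ, ← mul_assoc, map_mul, aeval_X, mul_assoc, h1 b hb, mul_smul_comm, ih,
          smul_smul, eval_mul (q := X), eval_X, mul_comm (v b)]
    have h3 : aeval d (Lagrange.basis s v a) = p a := by
      rw [← mul_one (aeval d _), ← hsum, Finset.mul_sum, Finset.sum_eq_single a, h2 a ha,
        Lagrange.eval_basis_self hv.injOn ha, one_smul]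
      · intro c hc hca
        rw [h2 c hc, Lagrange.eval_basis_of_ne hca.symm hc, zero_smul]
      · exact fun h => absurd ha h
    rw [← h3]
    exact Algebra.adjoin_le (Set.singleton_subset_iff.2 (h0 ▸ hd)) (aeval_mem_adjoin_singleton K d)
  · rw [← mul_one (p a), ← hsum, Finset.mul_sum]
    refine sum_mem fun b hb => ?_
    rw [horth, if_neg fun h : a = b => ha (h ▸ hb)]
    exact zero_mem _

theorem exists_tau {A Q : Type*} [AddCommGroup A] [Module ℂ A] [AddCommGroup Q] [Module ℂ Q]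
    (q : A →ₗ[ℂ] Q) (hq : Function.Surjective q) (t : A →ₗ[ℂ] ℂ) (h : ∀ x, q x = 0 → t x = 0) :
    ∃ τ : Q →ₗ[ℂ] ℂ, ∀ x, τ (q x) = t x := by
  obtain ⟨σ, hσ⟩ := q.exists_rightInverse_of_surjective (range_eq_top.2 hq)
  refine ⟨t ∘ₗ σ, fun x => ?_⟩
  have h3 : q (σ (q x)) = q x := DFunLike.congr_fun hσ (q x)
  rw [← sub_eq_zero, ← map_sub] at h3
  have h4 := h _ h3
  rwa [map_sub, sub_eq_zero] at h4

section abstract

variable {Q : Type*} [Ring Q] [Algebra ℂ Q] [Module.Finite ℂ Q]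

/-- Spectral idempotents of a central element. -/
theorem spec {z : Q} (hz : z ∈ Subalgebra.center ℂ Q)
    (hred : ∀ w ∈ Subalgebra.center ℂ Q, IsNilpotent w → w = 0) :
    ∃ (T : Finset ℂ) (π : ℂ → Q), (∀ μ, π μ ∈ Subalgebra.center ℂ Q) ∧ ∑ μ ∈ T, π μ = 1 ∧
      (∀ μ ∈ T, z * π μ = μ • π μ) ∧ ∀ μ ∈ T, IsIdempotentElem (π μ) := by
  classical
  rcases subsingleton_or_nontrivial Q with h | h
  · exact ⟨∅, fun _ => 0, fun _ => zero_mem _, Subsingleton.elim _ _,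
      fun _ _ => Subsingleton.elim _ _, fun _ _ => Subsingleton.elim _ _⟩
  have h1 : IsIntegral ℂ z := IsIntegral.of_finite ℂ z
  have h2 : ∀ r : ℂ[X], aeval z r ∈ Subalgebra.center ℂ Q := fun r =>
    Algebra.adjoin_le (Set.singleton_subset_iff.2 hz) (aeval_mem_adjoin_singleton ℂ z)
  obtain ⟨T, hT⟩ : ∃ T, T = (minpoly ℂ z).roots.toFinset := ⟨_, rfl⟩
  have h3 : T.Nonempty := by
    obtain ⟨μ, hμ⟩ := IsAlgClosed.exists_root (minpoly ℂ z) (minpoly.degree_pos h1).ne'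
    exact ⟨μ, by
      rw [hT, Multiset.mem_toFinset]
      exact (mem_roots (minpoly.ne_zero h1)).2 hμ⟩
  have h4 : ∀ m : Multiset ℂ, (∀ a ∈ m, a ∈ T) →
      (m.map fun a => X - C a).prod ∣ Lagrange.nodal T _root_.id ^ m.card := fun m => by
    induction m using Multiset.induction_on with
    | empty => exact fun _ => by simp
    | cons a m ih =>
      intro hm
      rw [Multiset.map_cons, Multiset.prod_cons, Multiset.card_cons, pow_succ']
      exact mul_dvd_mul (Lagrange.X_sub_C_dvd_nodal _root_.id (hm a (Multiset.mem_cons_self a m)))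
        (ih fun b hb => hm b (Multiset.mem_cons_of_mem hb))
  have h5 : aeval z (Lagrange.nodal T _root_.id) = 0 := by
    obtain ⟨r, hr⟩ := h4 (minpoly ℂ z).roots fun a ha => hT ▸ Multiset.mem_toFinset.2 ha
    rw [← (IsAlgClosed.splits _).eq_prod_roots_of_monic (minpoly.monic h1)] at hr
    exact hred _ (h2 _) ⟨_, by rw [← map_pow, hr, map_mul, minpoly.aeval, zero_mul]⟩
  have h6 : ∀ μ ∈ T, z * aeval z (Lagrange.basis T _root_.id μ) =
      μ • aeval z (Lagrange.basis T _root_.id μ) := fun μ hμ => by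
    have h6 : (X - C μ) * Lagrange.basis T _root_.id μ =
        C (Lagrange.nodalWeight T _root_.id μ) * Lagrange.nodal T _root_.id := by
      rw [Lagrange.basis_eq_prod_sub_inv_mul_nodal_div hμ, ← Lagrange.nodal_erase_eq_nodal_div hμ,
        Lagrange.nodal_eq_mul_nodal_erase hμ, mul_left_comm]
      rfl
    have h7 := congrArg (aeval z) h6
    rwa [map_mul, map_mul, h5, mul_zero, map_sub, aeval_X, aeval_C, sub_mul, sub_eq_zero,
      ← Algebra.smul_def] at h7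
  have h7 : ∑ μ ∈ T, aeval z (Lagrange.basis T _root_.id μ) = 1 := by
    rw [← map_sum, Lagrange.sum_basis (Set.injOn_id _) h3, map_one]
  refine ⟨T, _, fun μ => h2 _, h7, h6, fun μ hμ => ?_⟩
  rw [IsIdempotentElem]
  conv_rhs => rw [← mul_one (aeval z _), ← h7, Finset.mul_sum]
  rw [Finset.sum_eq_single μ (fun ν hν hne => ?_) fun h8 => absurd hμ h8]
  have h8 : μ • (aeval z (Lagrange.basis T _root_.id μ) * aeval z (Lagrange.basis T _root_.id ν)) =
      ν • (aeval z (Lagrange.basis T _root_.id μ) * aeval z (Lagrange.basis T _root_.id ν)) := by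
    rw [← smul_mul_assoc, ← h6 μ hμ, ← mul_smul_comm, ← h6 ν hν, ← mul_assoc,
      Subalgebra.mem_center_iff.1 hz]
  rw [← sub_eq_zero, ← sub_smul, smul_eq_zero] at h8
  exact h8.resolve_left (sub_ne_zero.2 hne.symm)

theorem ineq {a b c d m : ℝ} (ha : 0 ≤ a) (hb : 0 ≤ b) (hc : c ≤ 0) (hd : 0 ≤ d)
    (h : c = 0 ↔ a = 0) (hm : c + d = m * (a + b)) :
    c - m * a ≤ 0 ∧ (c - m * a = 0 → a = 0 ∨ b = 0) := by
  have h1 : (a + b) * (c - m * a) = c * b - d * a := by linear_combination (-a) * hm.symm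
  have h2 := mul_nonpos_of_nonpos_of_nonneg hc hb
  have h3 := mul_nonneg hd ha
  refine ⟨?_, fun h4 => ?_⟩
  · rcases ha.eq_or_lt with h4 | h4
    · rw [h.2 h4.symm, ← h4, mul_zero, sub_zero]
    · by_contra h5
      have h6 := mul_pos (add_pos_of_pos_of_nonneg h4 hb) (not_le.1 h5)
      linarith
  · rw [h4, mul_zero] at h1
    have h5 : c * b = 0 := by linarith
    exact (mul_eq_zero.1 h5).imp_left h.1

theorem fin (τ : Q →ₗ[ℂ] ℂ)
    (hτ : ∀ x, IsIdempotentElem x → ∃ n : ℕ, τ x = n ∧ (n = 0 → x = 0))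
    (hred : ∀ w ∈ Subalgebra.center ℂ Q, IsNilpotent w → w = 0) {s : Finset ℝ} {p : ℝ → Q}
    (hsum : ∑ a ∈ s, p a = 1) (horth : ∀ a b, p a * p b = if a = b then p a else 0) {y : Q}
    (hz : ∑ a ∈ s, (a : ℂ) • p a - y ∈ Subalgebra.center ℂ Q)
    (hy : ∀ w ∈ Subalgebra.center ℂ Q, τ (y * w) = 0)
    (he : τ ((∑ a ∈ s.filter (· < 0), p a) * y) = 0) :
    ∑ a ∈ s.filter (· < 0), p a ∈ Subalgebra.center ℂ Q := by
  obtain ⟨T, π, h1, h2, h3, h4⟩ := spec hz hred
  have h5 : ∀ μ a, ∃ n : ℕ, μ ∈ T → τ (p a * π μ) = n ∧ (n = 0 → p a * π μ = 0) := fun μ a => by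
    by_cases hμ : μ ∈ T
    · exact (hτ _ (IsIdempotentElem.mul_of_commute (Subalgebra.mem_center_iff.1 (h1 μ) _)
        ((horth a a).trans (if_pos rfl)) (h4 μ hμ))).imp fun _ h _ => h
    · exact ⟨0, fun h => absurd h hμ⟩
  choose n hn using h5
  have h6 : ∀ μ ∈ T, ∀ a ∈ s, τ (p a * y * π μ) = (a - μ) * n μ a := fun μ hμ a ha => by
    have h6 : p a * ∑ b ∈ s, (b : ℂ) • p b = (a : ℂ) • p a := by
      rw [Finset.mul_sum, Finset.sum_eq_single a, mul_smul_comm, horth, if_pos rfl]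
      · intro c _ hc
        rw [mul_smul_comm, horth, if_neg hc.symm, smul_zero]
      · exact fun h => absurd ha h
    have h7 := congrArg (fun x => τ (p a * x)) (h3 μ hμ)
    simp only [← mul_assoc, mul_sub, sub_mul, h6, smul_mul_assoc, mul_smul_comm, map_sub, map_smul,
      smul_eq_mul, (hn μ a hμ).1] at h7
    linear_combination -h7
  have h7 : ∀ μ ∈ T, ∀ t ⊆ s, (τ ((∑ a ∈ t, p a) * y * π μ)).re =
      ∑ a ∈ t, a * n μ a - μ.re * ∑ a ∈ t, (n μ a : ℝ) := fun μ hμ t ht => by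
    rw [Finset.sum_mul, Finset.sum_mul, map_sum, Complex.re_sum, Finset.mul_sum,
      ← Finset.sum_sub_distrib]
    refine Finset.sum_congr rfl fun a ha => ?_
    rw [h6 μ hμ a (ht ha)]
    simp [sub_mul]
  have h8 : ∀ μ ∈ T, (τ ((∑ a ∈ s.filter (· < 0), p a) * y * π μ)).re ≤ 0 ∧
      ((τ ((∑ a ∈ s.filter (· < 0), p a) * y * π μ)).re = 0 →
        ∑ a ∈ s.filter (· < 0), (n μ a : ℝ) = 0 ∨
          ∑ a ∈ s.filter (¬ · < 0), (n μ a : ℝ) = 0) := fun μ hμ => by
    have k1 : ∀ a ∈ s.filter (· < 0), a * (n μ a : ℝ) ≤ 0 := fun a ha =>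
      mul_nonpos_of_nonpos_of_nonneg (Finset.mem_filter.1 ha).2.le (Nat.cast_nonneg _)
    rw [h7 μ hμ _ (Finset.filter_subset _ _)]
    refine ineq (d := ∑ a ∈ s.filter (¬ · < 0), a * n μ a)
      (Finset.sum_nonneg fun _ _ => Nat.cast_nonneg _)
      (Finset.sum_nonneg fun _ _ => Nat.cast_nonneg _) (Finset.sum_nonpos k1)
      (Finset.sum_nonneg fun a ha =>
        mul_nonneg (not_lt.1 (Finset.mem_filter.1 ha).2) (Nat.cast_nonneg _)) ?_ ?_
    · rw [Finset.sum_eq_zero_iff_of_nonpos k1,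
        Finset.sum_eq_zero_iff_of_nonneg fun _ _ => Nat.cast_nonneg _]
      exact forall₂_congr fun a ha => mul_eq_zero_iff_left (Finset.mem_filter.1 ha).2.ne
    · have k2 := h7 μ hμ s le_rfl
      rw [hsum, one_mul, hy _ (h1 μ), Complex.zero_re, eq_comm, sub_eq_zero] at k2
      rw [Finset.sum_filter_add_sum_filter_not, Finset.sum_filter_add_sum_filter_not, k2]
  have h9 : ∑ μ ∈ T, (τ ((∑ a ∈ s.filter (· < 0), p a) * y * π μ)).re = 0 := by
    rw [← Complex.re_sum, ← map_sum, ← Finset.mul_sum, h2, mul_one, he, Complex.zero_re]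
  rw [Finset.sum_eq_zero_iff_of_nonpos fun μ hμ => (h8 μ hμ).1] at h9
  have h10 : ∀ μ ∈ T, ∀ t : Finset ℝ, ∑ a ∈ t, (n μ a : ℝ) = 0 → (∑ a ∈ t, p a) * π μ = 0 :=
    fun μ hμ t ht => by
      rw [Finset.sum_eq_zero_iff_of_nonneg fun _ _ => Nat.cast_nonneg _] at ht
      rw [Finset.sum_mul]
      exact Finset.sum_eq_zero fun a ha => (hn μ a hμ).2 (Nat.cast_eq_zero.1 (ht a ha))
  rw [← mul_one (∑ a ∈ s.filter (· < 0), p a), ← h2, Finset.mul_sum]
  refine sum_mem fun μ hμ => ?_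
  rcases (h8 μ hμ).2 (h9 μ hμ) with h11 | h11
  · rw [h10 μ hμ _ h11]
    exact zero_mem _
  · have h12 := h10 μ hμ _ h11
    rw [← add_zero (_ * π μ), ← h12, ← add_mul, Finset.sum_filter_add_sum_filter_not, hsum,
      one_mul]
    exact h1 μ

end abstract

variable {W : Type*} [AddCommGroup W] [Module ℂ W] [FiniteDimensional ℂ W]

theorem core {L : Submodule ℂ (End ℂ W)} (hL : ∀ A ∈ L, ∀ B ∈ L, A * B - B * A ∈ L)
    {s : Finset ℝ} {p : ℝ → End ℂ W} (hsum : ∑ a ∈ s, p a = 1)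
    (horth : ∀ a b, p a * p b = if a = b then p a else 0) (hd : ∑ a ∈ s, (a : ℂ) • p a ∈ L)
    (htr : ∀ A ∈ L, ∀ B ∈ L, trace ℂ W ((∑ a ∈ s.filter (· < 0), p a) * (A * B - B * A)) = 0) :
    Zn (Algebra.adjoin ℂ (L : Set (End ℂ W))) (∑ a ∈ s.filter (· < 0), p a) := by
  obtain ⟨y, hy, h1⟩ := dec hL hd
  have h2 : trace ℂ W ((∑ a ∈ s.filter (· < 0), p a) * y) = 0 := by
    have h2 : br L L ≤ ker (trace ℂ W ∘ₗ mulLeft ℂ (∑ a ∈ s.filter (· < 0), p a)) := br_le htr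
    exact h2 hy
  have h0 : ∀ A ∈ L, A ∈ Algebra.adjoin ℂ (L : Set (End ℂ W)) := fun A hA =>
    Algebra.subset_adjoin hA
  generalize Algebra.adjoin ℂ (L : Set (End ℂ W)) = E at h0 h1 ⊢
  have hp := idem_mem E Complex.ofReal_injective hsum horth (h0 _ hd)
  let I : Ideal E :=
    { carrier := {x | (x : End ℂ W) ∈ Rd E}
      zero_mem' := zero_mem (Rd E)
      add_mem' := fun ha hb => (Rd E).add_mem ha hb
      smul_mem' := fun c _ ha => rd_left ha c.2 }
  have : I.IsTwoSided := ⟨fun b ha => rd_right ha b.2⟩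
  let q : E →ₐ[ℂ] E ⧸ I := Ideal.Quotient.mkₐ ℂ I
  have q1 : Function.Surjective q := Ideal.Quotient.mkₐ_surjective ℂ I
  have q2 : ∀ x, q x = 0 ↔ (x : End ℂ W) ∈ Rd E := fun x => Ideal.Quotient.eq_zero_iff_mem
  have q3 : ∀ x : E, q x ∈ Subalgebra.center ℂ (E ⧸ I) ↔ Zn E x := fun x => by
    rw [Subalgebra.mem_center_iff, q1.forall]
    refine ⟨fun h => ⟨x.2, fun a ha => (q2 (⟨a, ha⟩ * x - x * ⟨a, ha⟩)).1 ?_⟩, fun h a => ?_⟩
    · rw [map_sub, map_mul, map_mul, h, sub_self]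
    · rw [← sub_eq_zero, ← map_mul, ← map_mul, ← map_sub, q2]
      exact h.2 a a.2
  have : Module.Finite ℂ (E ⧸ I) := Module.Finite.of_surjective q.toLinearMap q1
  obtain ⟨τ, hτ⟩ : ∃ τ : (E ⧸ I) →ₗ[ℂ] ℂ, ∀ x : E, τ (q x) = trace ℂ W x :=
    exists_tau q.toLinearMap q1 (trace ℂ W ∘ₗ E.val.toLinearMap) fun x hx => by
      have h4 := rd_tr ((q2 x).1 hx) E.one_mem
      rw [one_mul] at h4
      exact h4
  let P : ℝ → E := fun a => ⟨p a, hp a⟩
  have hP : ∀ t : Finset ℝ, ((∑ a ∈ t, P a : E) : End ℂ W) = ∑ a ∈ t, p a := fun t =>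
    AddSubmonoidClass.coe_finsetSum _ _
  have hY : y ∈ E := h0 y (br_le hL hy)
  rw [← hP, ← q3, map_sum]
  refine fin (y := q ⟨y, hY⟩) τ (fun x hx => ?_) ?_ ?_ (fun a b => ?_) ?_ ?_ ?_
  · obtain ⟨e, h3, rfl⟩ := exists_isIdempotentElem_eq_of_ker_isNilpotent (q : E →+* E ⧸ I)
      (fun x hx => by
        obtain ⟨n, hn⟩ := rd_nil ((q2 x).1 hx)
        exact ⟨n, Subtype.ext hn⟩) x (q1 x) hx
    have h4 : IsIdempotentElem (e : End ℂ W) := congrArg Subtype.val h3
    have h5 := (LinearMap.IsIdempotentElem.isProj_range _ h4).trace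
    refine ⟨_, (hτ e).trans h5, fun h6 => ?_⟩
    rw [h6, Nat.cast_zero] at h5
    have h7 : e = 0 := Subtype.ext (LinearMap.IsIdempotentElem.eq_zero_of_trace_eq_zero h4 h5)
    rw [h7, map_zero]
  · rw [q1.forall]
    rintro x hx ⟨n, hn⟩
    rw [← map_pow, q2] at hn
    exact (q2 x).2 (((q3 x).1 hx).rd (IsNilpotent.of_pow (rd_nil hn)))
  · rw [← map_sum, ← map_one q]
    exact congrArg q (Subtype.ext ((hP s).trans hsum))
  · rw [← map_mul]
    have h3 := horth a b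
    split_ifs at h3 ⊢
    · exact congrArg q (Subtype.ext h3)
    · rw [← map_zero q]
      exact congrArg q (Subtype.ext h3)
  · simp only [← map_smul q, ← map_sum, ← map_sub, q3]
    have h3 : ((∑ a ∈ s, (a : ℂ) • P a : E) : End ℂ W) = ∑ a ∈ s, (a : ℂ) • p a :=
      AddSubmonoidClass.coe_finsetSum _ _
    rw [Subalgebra.coe_sub, h3]
    exact h1
  · rw [q1.forall]
    intro w hw
    rw [← map_mul, hτ]
    exact tr_br h0 (fun B hB => ((q3 w).1 hw).2 B (h0 B hB)) hy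
  · rw [← map_sum, ← map_mul, hτ, Subalgebra.coe_mul, hP]
    exact h2

end Vale.Agent.P207Z.Geo.Purx

end
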