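import Vale.Agent.P207Z.Geo.Pur.Nil

/-!
The radical of the trace form on the algebra generated by a family of endomorphisms which is
closed under commutators.
-/

open LinearMap Module

noncomputable section

namespace Vale.Agent.P207Z.Geo.Purx

variable {K W : Type*} [Field K] [AddCommGroup W] [Module K W]

/-- The radical of the trace form. -/
def Rd (E : Subalgebra K (End K W)) : Submodule K (End K W) where
  carrier := {x | x ∈ E ∧ ∀ y ∈ E, trace K W (x * y) = 0}
  zero_mem' := ⟨zero_mem _, fun y _ => by rw [zero_mul, map_zero]⟩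
  add_mem' := fun ha hb => ⟨add_mem ha.1 hb.1, fun y hy => by
    rw [add_mul, map_add, ha.2 y hy, hb.2 y hy, add_zero]⟩
  smul_mem' := fun c _ ha => ⟨E.smul_mem ha.1 c, fun y hy => by
    rw [smul_mul_assoc, map_smul, ha.2 y hy, smul_zero]⟩

/-- Central elements modulo the radical. -/
def Zn (E : Subalgebra K (End K W)) (w : End K W) : Prop :=
  w ∈ E ∧ ∀ a ∈ E, a * w - w * a ∈ Rd E

variable {E : Subalgebra K (End K W)} {a x y w : End K W}

theorem rd_right (hx : x ∈ Rd E) (ha : a ∈ E) : x * a ∈ Rd E :=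
  ⟨mul_mem hx.1 ha, fun y hy => by rw [mul_assoc, hx.2 _ (mul_mem ha hy)]⟩

theorem rd_left (hx : x ∈ Rd E) (ha : a ∈ E) : a * x ∈ Rd E :=
  ⟨mul_mem ha hx.1, fun y hy => by
    rw [mul_assoc, trace_mul_comm, mul_assoc, hx.2 _ (mul_mem hy ha)]⟩

theorem rd_tr (hx : x ∈ Rd E) (ha : a ∈ E) : trace K W (a * x) = 0 := by
  rw [trace_mul_comm, hx.2 a ha]

theorem rd_swap (h : x * y - y * x ∈ Rd E) : y * x - x * y ∈ Rd E := by
  rw [← neg_sub]
  exact neg_mem h

theorem cm_mul (hy : y ∈ E) (hw : w ∈ E) (h1 : x * y - y * x ∈ Rd E)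
    (h2 : x * w - w * x ∈ Rd E) : x * (y * w) - y * w * x ∈ Rd E := by
  have h3 : x * (y * w) - y * w * x = (x * y - y * x) * w + y * (x * w - w * x) := by noncomm_ring
  rw [h3]
  exact add_mem (rd_right h1 hw) (rd_left h2 hy)

theorem cm_pow (hy : y ∈ E) (h1 : x * y - y * x ∈ Rd E) (k : ℕ) :
    x * y ^ k - y ^ k * x ∈ Rd E := by
  induction k with
  | zero =>
    rw [pow_zero, mul_one, one_mul, sub_self]
    exact zero_mem _
  | succ k ih =>
    rw [pow_succ]
    exact cm_mul (pow_mem hy k) hy ih h1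

theorem Zn.pow (h : Zn E w) (k : ℕ) : Zn E (w ^ k) :=
  ⟨pow_mem h.1 k, fun a ha => cm_pow h.1 (h.2 a ha) k⟩

theorem tr_br {S T : Submodule K (End K W)} (hS : ∀ A ∈ S, A ∈ E)
    (hT : ∀ B ∈ T, B * w - w * B ∈ Rd E) (hy : y ∈ br S T) : trace K W (y * w) = 0 := by
  have h1 : br S T ≤ ker (trace K W ∘ₗ mulRight K w) := br_le fun A hA B hB => by
    change trace K W ((A * B - B * A) * w) = 0
    rw [← rd_tr (hT B hB) (hS A hA), sub_mul, mul_sub, map_sub, map_sub, mul_assoc, mul_assoc,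
      trace_mul_comm K B, mul_assoc]
  exact h1 hy

theorem zn_of {L : Submodule K (End K W)} (hw : w ∈ Algebra.adjoin K (L : Set (End K W)))
    (h : ∀ c ∈ L, c * w - w * c ∈ Rd (Algebra.adjoin K (L : Set (End K W)))) :
    Zn (Algebra.adjoin K (L : Set (End K W))) w := by
  refine ⟨hw, fun a ha => rd_swap ?_⟩
  induction ha using Algebra.adjoin_induction with
  | mem c hc => exact rd_swap (h c hc)
  | algebraMap r =>
    rw [Algebra.commutes, sub_self]
    exact zero_mem _
  | add a b _ _ ha hb =>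
    rw [mul_add, add_mul, add_sub_add_comm]
    exact add_mem ha hb
  | mul a b h1 h2 ha hb => exact cm_mul h1 h2 ha hb

variable [CharZero K] [FiniteDimensional K W]

theorem rd_nil (hx : x ∈ Rd E) : IsNilpotent x :=
  nil_of_tr fun k => hx.2 _ (pow_mem hx.1 k)

theorem Zn.rd (h : Zn E w) (hn : IsNilpotent w) : w ∈ Rd E := by
  refine ⟨h.1, fun B hB => ?_⟩
  have h1 : ∀ k : ℕ, (w * B) ^ k - w ^ k * B ^ k ∈ Rd E := fun k => by
    induction k with
    | zero =>
      rw [pow_zero, pow_zero, pow_zero, one_mul, sub_self]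
      exact zero_mem _
    | succ k ih =>
      have h2 : (w * B) ^ (k + 1) - w ^ (k + 1) * B ^ (k + 1) =
          ((w * B) ^ k - w ^ k * B ^ k) * (w * B) + w ^ k * ((B ^ k * w - w * B ^ k) * B) := by
        rw [pow_succ, pow_succ, pow_succ]
        noncomm_ring
      rw [h2]
      exact add_mem (rd_right ih (mul_mem h.1 hB))
        (rd_left (rd_right (h.2 _ (pow_mem hB k)) hB) (pow_mem h.1 k))
  obtain ⟨n, hn⟩ := hn
  have h2 := h1 n
  rw [hn, zero_mul, sub_zero] at h2
  exact (isNilpotent_trace_of_isNilpotent (IsNilpotent.of_pow (rd_nil h2))).eq_zero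

variable {L : Submodule K (End K W)}

omit [CharZero K] in
theorem ideal_le {S : Submodule K (End K W)} (hle : S ≤ L)
    (hS : ∀ c ∈ L, ∀ A ∈ S, c * A - A * c ∈ S) (hn : ∀ A ∈ S, IsNilpotent A) :
    S ≤ Rd (Algebra.adjoin K (L : Set (End K W))) := fun _ hx =>
  ⟨Algebra.subset_adjoin (hle hx), fun _ hB => nil_ideal hle hS hn hx hB⟩

/-- The trace form on the derived algebra is nondegenerate modulo the radical. -/
theorem key (hL : ∀ A ∈ L, ∀ B ∈ L, A * B - B * A ∈ L) (hx : x ∈ br L L)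
    (h : ∀ y ∈ br L L, trace K W (x * y) = 0) :
    x ∈ Rd (Algebra.adjoin K (L : Set (End K W))) := by
  have h0 : ∀ A ∈ L, A ∈ Algebra.adjoin K (L : Set (End K W)) := fun A hA =>
    Algebra.subset_adjoin hA
  have h1 : br L L ≤ L := br_le hL
  let S : Submodule K (End K W) :=
    { carrier := {x | x ∈ br L L ∧ ∀ y ∈ br L L, trace K W (x * y) = 0}
      zero_mem' := ⟨zero_mem _, fun y _ => by rw [zero_mul, map_zero]⟩
      add_mem' := fun ha hb => ⟨add_mem ha.1 hb.1, fun y hy => by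
        rw [add_mul, map_add, ha.2 y hy, hb.2 y hy, add_zero]⟩
      smul_mem' := fun c _ ha => ⟨Submodule.smul_mem _ c ha.1, fun y hy => by
        rw [smul_mul_assoc, map_smul, ha.2 y hy, smul_zero]⟩ }
  have h2 : S ≤ L := fun A hA => h1 hA.1
  have h3 : ∀ c ∈ L, ∀ A ∈ S, c * A - A * c ∈ S := fun c hc A hA =>
    ⟨mem_br hc (h2 hA), fun y hy => by
      rw [← hA.2 _ (mem_br (h1 hy) hc), sub_mul, mul_sub, map_sub, map_sub, mul_assoc, mul_assoc,
        trace_mul_comm K c, mul_assoc]⟩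
  have h4 : ∀ A ∈ S, ∀ B ∈ S, A * B - B * A ∈ S := fun A hA => h3 A (h2 hA)
  have h5 := ideal_le ((br_le h4).trans h2) (br_ideal h3 h3)
    (cartan h4 fun A hA B hB => hA.2 B hB.1)
  have h6 := ideal_le ((br_le h3).trans h2) (br_ideal hL h3) fun y hy =>
    nil_of_tr fun k => tr_br h0 (fun B hB =>
      cm_pow (h0 y (h2 (br_le h3 hy))) (h5 (mem_br hB (br_le h3 hy))) k) hy
  have h7 := zn_of (h0 x (h1 hx)) fun c hc => h6 (mem_br hc ⟨hx, h⟩)
  exact h7.rd (nil_of_tr fun k => tr_br h0 (fun B hB => (h7.pow k).2 B (h0 B hB)) hx)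

/-- Every element is a sum of commutators and a central element modulo the radical. -/
theorem dec (hL : ∀ A ∈ L, ∀ B ∈ L, A * B - B * A ∈ L) {d : End K W} (hd : d ∈ L) :
    ∃ y ∈ br L L, Zn (Algebra.adjoin K (L : Set (End K W))) (d - y) := by
  have h0 : ∀ A ∈ L, A ∈ Algebra.adjoin K (L : Set (End K W)) := fun A hA =>
    Algebra.subset_adjoin hA
  have h1 : br L L ≤ L := br_le hL
  let B : br L L →ₗ[K] br L L →ₗ[K] K :=
    ((mul K (End K W)).compr₂ (trace K W)).compl₁₂ (br L L).subtype (br L L).subtype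
  have h2 : trace K W ∘ₗ mulRight K d ∘ₗ (br L L).subtype ∈ range B.flip := by
    rw [← dualAnnihilator_ker_eq_range_flip, Submodule.mem_dualAnnihilator]
    intro x hx
    exact (key hL x.2 fun y hy => DFunLike.congr_fun (mem_ker.1 hx) ⟨y, hy⟩).2 d (h0 d hd)
  obtain ⟨y, hy⟩ := h2
  have h3 : d - y ∈ L := sub_mem hd (h1 y.2)
  have h4 : ∀ x ∈ br L L, trace K W (x * (d - y)) = 0 := fun x hx => by
    have h4 : trace K W (x * y) = trace K W (x * d) := DFunLike.congr_fun hy ⟨x, hx⟩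
    rw [mul_sub, map_sub, h4, sub_self]
  refine ⟨y, y.2, zn_of (h0 _ h3) fun c hc => key hL (mem_br hc h3) fun b hb => ?_⟩
  rw [← h4 _ (mem_br (h1 hb) hc)]
  generalize d - y = z
  rw [sub_mul, sub_mul, map_sub, map_sub, trace_mul_comm K _ b, mul_assoc b, mul_assoc _ c b,
    trace_mul_comm K z]

end Vale.Agent.P207Z.Geo.Purx

end
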