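import Mathlib

/-!
Nilpotent endomorphisms: traces of powers, the theorem of Engel and the criterion of Cartan in
associative form.
-/

open LinearMap Module Polynomial

noncomputable section

namespace Vale.Agent.P207Z.Geo.Purx

variable {K W : Type*} [Field K] [CharZero K] [AddCommGroup W] [Module K W]
  [FiniteDimensional K W]

/-- An endomorphism all of whose powers are traceless is nilpotent. -/
theorem nil_of_tr {A : End K W} (h : ∀ k : ℕ, trace K W (A * A ^ k) = 0) : IsNilpotent A := by
  have h1 : ∀ r : K[X], trace K W (A * aeval A r) = 0 := fun r => by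
    induction r using Polynomial.induction_on' with
    | add p q hp hq => rw [map_add, mul_add, map_add, hp, hq, add_zero]
    | monomial n a =>
      rw [aeval_monomial, ← Algebra.smul_def, mul_smul_comm, map_smul, h, smul_zero]
  obtain ⟨u, h2, h3⟩ := exists_eq_pow_rootMultiplicity_mul_and_not_dvd A.charpoly
    A.charpoly_monic.ne_zero 0
  generalize rootMultiplicity 0 A.charpoly = m at h2
  rw [C_0, sub_zero] at h2 h3
  rw [X_dvd_iff] at h3
  obtain ⟨q, hq⟩ : ∃ q : K[X], q = C (-(u.coeff 0)⁻¹) * u.divX := ⟨_, rfl⟩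
  have h4 : X ^ m * (X * q) = X ^ m + C (-(u.coeff 0)⁻¹) * A.charpoly := by
    have h5 : C (-(u.coeff 0)⁻¹) * C (u.coeff 0) = -1 := by
      rw [← C_mul, neg_mul, inv_mul_cancel₀ h3, C_neg, C_1]
    have h6 := X_mul_divX_add u
    rw [h2, hq]
    linear_combination X ^ m * C (-(u.coeff 0)⁻¹) * h6 - X ^ m * h5
  have h5 : A ^ m * aeval A (X * q) = A ^ m := by
    have h5 := congrArg (aeval A) h4
    rwa [map_mul, map_add, map_mul _ (C _), aeval_self_charpoly, mul_zero, add_zero, map_pow,
      aeval_X] at h5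
  have h6 : ∀ k : ℕ, A ^ m * aeval A (X * q) ^ k = A ^ m := fun k => by
    induction k with
    | zero => rw [pow_zero, mul_one]
    | succ k ih => rw [pow_succ, ← mul_assoc, ih, h5]
  have h7 : aeval A (X * q) ^ (m + 1) = aeval A (X * q ^ (m + 1)) * A ^ m := by
    rw [← map_pow, ← aeval_X_pow (R := K) A, ← map_mul]
    congr 1
    ring
  have h8 : IsIdempotentElem (aeval A (X * q) ^ (m + 1)) := by
    rw [IsIdempotentElem]
    nth_rw 1 [h7]
    rw [mul_assoc, h6, ← h7]
  have h9 : aeval A (X * q) ^ (m + 1) = 0 := by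
    refine LinearMap.IsIdempotentElem.eq_zero_of_trace_eq_zero h8 ?_
    rw [← h1 (q * (X * q) ^ m), ← map_pow, pow_succ', mul_assoc, map_mul, aeval_X]
  exact ⟨m, by rw [← h6 (m + 1), h9, mul_zero]⟩

/-- The descending chain of a family of endomorphisms. -/
def ch (S : Submodule K (End K W)) : ℕ → Submodule K W
  | 0 => ⊤
  | k + 1 => Submodule.span K {w | ∃ A ∈ S, ∃ v ∈ ch S k, w = A v}

omit [CharZero K] [FiniteDimensional K W] in
theorem ch_succ {S : Submodule K (End K W)} {k : ℕ} {A : End K W} (hA : A ∈ S) {v : W}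
    (hv : v ∈ ch S k) : A v ∈ ch S (k + 1) := Submodule.subset_span ⟨A, hA, v, hv, rfl⟩

omit [CharZero K] in
/-- The theorem of Engel. -/
theorem engel {S : Submodule K (End K W)} (hS : ∀ A ∈ S, ∀ B ∈ S, A * B - B * A ∈ S)
    (hn : ∀ A ∈ S, IsNilpotent A) : ∃ N, ch S N = ⊥ := by
  let : LieRing (End K W) := LieRing.ofAssociativeRing
  let L : LieSubalgebra K (End K W) := { S with lie_mem' := fun {A B} hA hB => hS A hA B hB }
  have h1 : LieModule.IsNilpotent L W :=
    (LieModule.isNilpotent_iff_forall' (R := K)).2 fun x => hn x.1 x.2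
  obtain ⟨N, hN⟩ := (LieModule.isNilpotent_iff K L W).1 h1
  have h2 : ∀ k, ch S k ≤ (LieModule.lowerCentralSeries K L W k).toSubmodule := fun k => by
    induction k with
    | zero => exact fun _ _ => LieSubmodule.mem_top _
    | succ k ih =>
      refine Submodule.span_le.2 ?_
      rintro _ ⟨A, hA, v, hv, rfl⟩
      rw [LieModule.lowerCentralSeries_succ]
      exact LieSubmodule.lie_mem_lie (x := (⟨A, hA⟩ : L)) (LieSubmodule.mem_top _) (ih hv)
  refine ⟨N, eq_bot_iff.2 ((h2 N).trans ?_)⟩
  rw [hN]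
  exact le_rfl

/-- The span of the commutators. -/
def br (S T : Submodule K (End K W)) : Submodule K (End K W) :=
  Submodule.span K {x | ∃ A ∈ S, ∃ B ∈ T, x = A * B - B * A}

omit [CharZero K] [FiniteDimensional K W] in
theorem mem_br {S T : Submodule K (End K W)} {A B : End K W} (hA : A ∈ S) (hB : B ∈ T) :
    A * B - B * A ∈ br S T := Submodule.subset_span ⟨A, hA, B, hB, rfl⟩

omit [CharZero K] [FiniteDimensional K W] in
theorem br_le {S T U : Submodule K (End K W)} (h : ∀ A ∈ S, ∀ B ∈ T, A * B - B * A ∈ U) :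
    br S T ≤ U := Submodule.span_le.2 (by
  rintro _ ⟨A, hA, B, hB, rfl⟩
  exact h A hA B hB)

/-- The criterion of Cartan. -/
theorem cartan {S : Submodule K (End K W)} (hS : ∀ A ∈ S, ∀ B ∈ S, A * B - B * A ∈ S)
    (ht : ∀ A ∈ S, ∀ B ∈ S, trace K W (A * B) = 0) : ∀ x ∈ br S S, IsNilpotent x := by
  let : LieRing (End K W) := LieRing.ofAssociativeRing
  let L : LieSubalgebra K (End K W) := { S with lie_mem' := fun {A B} hA hB => hS A hA B hB }
  have h1 : LieModule.traceForm K L W = 0 := by
    ext A B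
    exact ht A.1 A.2 B.1 B.2
  have h2 := (LieModule.isNilpotent_iff_forall' (R := K)).1
    (LieModule.isNilpotent_derivedSeries_of_traceForm_eq_zero h1)
  have h3 : br S S ≤ (LieAlgebra.derivedSeries K L 1).toSubmodule.map L.toSubmodule.subtype :=
    br_le fun A hA B hB => ⟨⁅(⟨A, hA⟩ : L), (⟨B, hB⟩ : L)⁆,
      LieSubmodule.lie_mem_lie (LieSubmodule.mem_top _) (LieSubmodule.mem_top _), rfl⟩
  intro x hx
  obtain ⟨y, hy, rfl⟩ := h3 hx
  exact h2 ⟨y, hy⟩

omit [CharZero K] [FiniteDimensional K W] in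
theorem br_ideal {L S T : Submodule K (End K W)} (hS : ∀ c ∈ L, ∀ A ∈ S, c * A - A * c ∈ S)
    (hT : ∀ c ∈ L, ∀ A ∈ T, c * A - A * c ∈ T) :
    ∀ c ∈ L, ∀ x ∈ br S T, c * x - x * c ∈ br S T := by
  intro c hc x hx
  have h1 : br S T ≤ (br S T).comap (mulLeft K c - mulRight K c) := br_le fun A hA B hB => by
    have h1 : c * (A * B - B * A) - (A * B - B * A) * c =
        ((c * A - A * c) * B - B * (c * A - A * c)) +
          (A * (c * B - B * c) - (c * B - B * c) * A) := by noncomm_ring
    change c * (A * B - B * A) - (A * B - B * A) * c ∈ br S T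
    rw [h1]
    exact add_mem (mem_br (hS c hc A hA) hB) (mem_br hA (hT c hc B hB))
  exact h1 hx

omit [CharZero K] in
/-- An ideal of nilpotent elements is orthogonal to the generated algebra. -/
theorem nil_ideal {L S : Submodule K (End K W)} (hle : S ≤ L)
    (hS : ∀ c ∈ L, ∀ A ∈ S, c * A - A * c ∈ S) (hn : ∀ A ∈ S, IsNilpotent A) {x : End K W}
    (hx : x ∈ S) {B : End K W} (hB : B ∈ Algebra.adjoin K (L : Set (End K W))) :
    trace K W (x * B) = 0 := by
  obtain ⟨N, hN⟩ := engel (fun A hA B hB => hS A (hle hA) B hB) hn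
  have h1 : ∀ k, ∀ c ∈ L, ∀ v ∈ ch S k, c v ∈ ch S k := fun k c hc => by
    induction k with
    | zero => exact fun _ _ => Submodule.mem_top
    | succ k ih =>
      have h1 : ch S (k + 1) ≤ (ch S (k + 1)).comap c := Submodule.span_le.2 (by
        rintro _ ⟨A, hA, v, hv, rfl⟩
        have h2 : c (A v) = A (c v) + (c * A - A * c) v := by simp
        change c (A v) ∈ ch S (k + 1)
        rw [h2]
        exact add_mem (ch_succ hA (ih v hv)) (ch_succ (hS c hc A hA) hv))
      exact h1
  have h2 : ∀ k, ∀ v ∈ ch S k, B v ∈ ch S k := fun k => by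
    induction hB using Algebra.adjoin_induction with
    | mem c hc => exact h1 k c hc
    | algebraMap r => exact fun v hv => Submodule.smul_mem _ r hv
    | add a b _ _ ha hb => exact fun v hv => add_mem (ha v hv) (hb v hv)
    | mul a b _ _ ha hb => exact fun v hv => ha _ (hb v hv)
  have h3 : ∀ k v, ((x * B) ^ k) v ∈ ch S k := fun k v => by
    induction k with
    | zero => exact Submodule.mem_top
    | succ k ih =>
      rw [pow_succ']
      exact ch_succ hx (h2 k _ ih)
  refine (isNilpotent_trace_of_isNilpotent ⟨N, LinearMap.ext fun v => ?_⟩).eq_zero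
  have h4 := h3 N v
  rwa [hN] at h4

end Vale.Agent.P207Z.Geo.Purx

end
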